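import Vale.Agent.P066.Theta.H463.TT
import Vale.Agent.P066.Theta.H615.Triple

/-!
# One joint of the flow

`local_step`: the local theorem when the incoming rays other than the one of `b` are known to be of
positive type only up to degree `D - 1`.
-/

set_option autoImplicit false

open Finset

namespace Vale.Agent.P066.Theta.H463

noncomputable section

open Vale.Agent.P066.Theta

variable {r : ℕ} {B : Matrix (Fin r) (Fin r) ℤ}

/-- Primitive classes. -/
def Prim (b : Fin r →₀ ℕ) : Prop := ∀ (n : ℕ) (c : Fin r →₀ ℕ), n • c = b → n = 1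

/-- The content of a class. -/
def cont (γ : Fin r →₀ ℕ) : ℕ := univ.gcd fun i => γ i

/-- The primitive class on the ray of `γ`. -/
def rt (γ : Fin r →₀ ℕ) : Fin r →₀ ℕ := Finsupp.equivFunOnFinite.symm fun i => γ i / cont γ

theorem cont_ne_zero {γ : Fin r →₀ ℕ} (h : γ ≠ 0) : cont γ ≠ 0 := by
  intro h0
  apply h
  unfold cont at h0
  rw [Finset.gcd_eq_zero_iff] at h0
  ext i
  simpa using h0 i (mem_univ i)

theorem cont_smul_rt (γ : Fin r →₀ ℕ) : cont γ • rt γ = γ := by
  ext i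
  have h : cont γ ∣ γ i := Finset.gcd_dvd (mem_univ i)
  simp only [rt, Finsupp.smul_apply, Finsupp.equivFunOnFinite_symm_apply_apply, smul_eq_mul]
  exact Nat.mul_div_cancel' h

theorem cont_smul (n : ℕ) (γ : Fin r →₀ ℕ) : cont (n • γ) = n * cont γ := by
  unfold cont
  have := Finset.gcd_mul_left (s := (univ : Finset (Fin r))) (f := fun i => γ i) (a := n)
  simpa using this

theorem rt_ne_zero {γ : Fin r →₀ ℕ} (h : γ ≠ 0) : rt γ ≠ 0 := by
  intro h0
  apply h
  rw [← cont_smul_rt γ, h0, smul_zero]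

theorem cont_rt {γ : Fin r →₀ ℕ} (h : γ ≠ 0) : cont (rt γ) = 1 := by
  have h1 := cont_smul (cont γ) (rt γ)
  rw [cont_smul_rt] at h1
  have h2 := cont_ne_zero h
  exact (Nat.mul_left_cancel (Nat.pos_of_ne_zero h2) (by rw [mul_one]; exact h1)).symm

theorem Prim.cont {c : Fin r →₀ ℕ} (hc : Prim c) : cont c = 1 :=
  hc _ _ (cont_smul_rt c)

theorem prim_of_cont {c : Fin r →₀ ℕ} (h : H463.cont c = 1) : Prim c := by
  rintro n d rfl
  rw [cont_smul] at h
  exact Nat.eq_one_of_mul_eq_one_right h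

theorem prim_rt {γ : Fin r →₀ ℕ} (h : γ ≠ 0) : Prim (rt γ) := prim_of_cont (cont_rt h)

theorem cont_smul_prim (n : ℕ) {c : Fin r →₀ ℕ} (hc : Prim c) : H463.cont (n • c) = n := by
  rw [cont_smul, hc.cont, mul_one]

theorem smul_cancel {n : ℕ} (hn : n ≠ 0) {c d : Fin r →₀ ℕ} (h : n • c = n • d) : c = d := by
  ext i
  have := DFunLike.congr_fun h i
  simp only [Finsupp.smul_apply, smul_eq_mul] at this
  exact Nat.mul_left_cancel (Nat.pos_of_ne_zero hn) this

theorem rt_smul {n : ℕ} (hn : n ≠ 0) {c : Fin r →₀ ℕ} (hc : Prim c) : rt (n • c) = c := by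
  have h := cont_smul_rt (n • c)
  rw [cont_smul_prim n hc] at h
  exact smul_cancel hn h

theorem wt_chartAt_self (hB : B.transpose = -B) (n : ℕ) (c : Fin r →₀ ℕ) :
    wt (chartAt B 0 c) (n • c) = 0 := by
  rw [wt_smul, wt_chartAt_zero, omega_self hB, mul_zero]

theorem posRay_of_lt {D : ℕ} {b : Fin r →₀ ℕ} {F : QSeries B} (h : D < deg b) (h0 : F 0 = 1) :
    PosRay D b F := by
  refine ⟨[], by simp, fun n hn => ?_⟩
  have : n = 0 := by
    by_contra hc
    have := Nat.le_mul_of_pos_left (deg b) (Nat.pos_of_ne_zero hc)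
    omega
  subst this
  simp [h0]

theorem PosRay.congr {D : ℕ} {b : Fin r →₀ ℕ} {F F' : QSeries B} (h : PosRay D b F)
    (hF : ∀ n : ℕ, n * deg b ≤ D → F' (n • b) = F (n • b)) : PosRay D b F' := by
  obtain ⟨l, hl, hl'⟩ := h
  exact ⟨l, hl, fun n hn => (hF n hn).trans (hl' n hn)⟩

theorem PosRay.mono {D D' : ℕ} (hD : D' ≤ D) {b : Fin r →₀ ℕ} {F : QSeries B} (h : PosRay D b F) :
    PosRay D' b F := by
  obtain ⟨l, hl, hl'⟩ := h
  exact ⟨l, hl, fun n hn => hl' n (hn.trans hD)⟩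

/-- The local theorem with the weaker input: degree `D - 1` on the rays other than `b`. -/
theorem local_step (hL : LocalTheorem) (hB : B.transpose = -B)
    (Λ : AddSubgroup (Fin r → ℤ)) (D : ℕ) (G : QSeries B) (h1 : G 0 = 1)
    (hsupp : ∀ γ, deg γ ≤ D → G γ ≠ 0 → toZ γ ∈ Λ)
    (hdep : ∀ x ∈ Λ, ∀ y ∈ Λ, ∀ z ∈ Λ, ∃ a b c : ℤ, (a ≠ 0 ∨ b ≠ 0 ∨ c ≠ 0) ∧
        a • x + b • y + c • z = 0)
    (hsat : ∀ (x : Fin r → ℤ) (n : ℤ), n ≠ 0 → n • x ∈ Λ → x ∈ Λ)
    (hnd : ∃ x ∈ Λ, ∃ y ∈ Λ, omega B x y ≠ 0)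
    {b : Fin r →₀ ℕ} (hb0 : b ≠ 0) (hbΛ : toZ b ∈ Λ) (hbp : Prim b)
    (hlow : ∀ c : Fin r →₀ ℕ, c ≠ 0 → toZ c ∈ Λ → Prim c → c ≠ b →
        ∀ gp g0 gm, IsTriple G gp g0 gm (chartAt B 0 c) → PosRay (D - 1) c g0)
    (hin : ∀ gp g0 gm, IsTriple G gp g0 gm (chartAt B 0 b) → PosRay D b g0) :
    ∀ gp g0 gm, IsTriple G gp g0 gm (-(chartAt B 0 b)) → PosRay D b g0 := by
  classical
  intro gp g0 gm htrip
  by_cases hD : D < deg b
  · exact posRay_of_lt hD htrip.g0_zero
  have hDpos : 0 < D := lt_of_lt_of_le (deg_pos hb0) (not_lt.1 hD)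
  -- the zero parts of `G`
  have hspec := fun c : Fin r →₀ ℕ => triple_spec h1 (chartAt B 0 c)
  have hch : ∀ c : Fin r →₀ ℕ, ∃ l : List (Bool × ℤ × ℕ), c ≠ 0 → toZ c ∈ Λ → Prim c → c ≠ b →
      (∀ u ∈ l, 0 < u.2.2) ∧ ∀ n : ℕ, n * deg c ≤ D - 1 →
        zeroPart G (chartAt B 0 c) (n • c) = PowerSeries.coeff n (l.map unitSeries).prod := by
    intro c
    by_cases hc : c ≠ 0 ∧ toZ c ∈ Λ ∧ Prim c ∧ c ≠ b
    · obtain ⟨l, hl, hl'⟩ := hlow c hc.1 hc.2.1 hc.2.2.1 hc.2.2.2 _ _ _ (hspec c)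
      exact ⟨l, fun _ _ _ _ => ⟨hl, hl'⟩⟩
    · exact ⟨[], fun h1 h2 h3 h4 => absurd ⟨h1, h2, h3, h4⟩ hc⟩
  choose l hl using hch
  let G' : QSeries B := fun γ => if deg γ = D ∧ toZ γ ∈ Λ ∧ rt γ ≠ b then
    G γ + (PowerSeries.coeff (cont γ) ((l (rt γ)).map unitSeries).prod -
      zeroPart G (chartAt B 0 (rt γ)) γ) else G γ
  have hG'lt : ∀ γ, deg γ < D → G' γ = G γ := by
    intro γ hγ
    simp only [G']
    rw [if_neg]
    rintro ⟨h, -⟩
    omega
  have hG'lt2 : ∀ γ, deg γ < D → G γ = G' γ := fun γ hγ => (hG'lt γ hγ).symm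
  have hG'b : ∀ n : ℕ, G' (n • b) = G (n • b) := by
    intro n
    by_cases hn : n = 0
    · subst hn
      rw [zero_smul]
      exact hG'lt 0 (by simpa using hDpos)
    · simp only [G']
      rw [if_neg]
      rintro ⟨-, -, h⟩
      exact h (rt_smul hn hbp)
  have h1' : G' 0 = 1 := by
    rw [hG'lt 0 (by simpa using hDpos), h1]
  have hspec' := fun Q : Fin r → ℤ => triple_spec h1' Q
  -- apply the local theorem to `G'`
  have hout := hL r B hB Λ D G' h1' ?_ hdep hsat hnd ?_ b hb0 hbΛ hbp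
    _ _ _ (hspec' (-(chartAt B 0 b)))
  · refine PosRay.congr hout fun n hn => ?_
    by_cases hn0 : n = 0
    · subst hn0
      rw [zero_smul, htrip.g0_zero, (hspec' (-(chartAt B 0 b))).g0_zero]
    have hnb : n • b ≠ 0 := by
      intro h
      apply hb0
      have : n • b = n • (0 : Fin r →₀ ℕ) := by rw [h, smul_zero]
      exact smul_cancel hn0 this
    have := TT.change (IsTriple.tt (hspec' (-(chartAt B 0 b))) D) (IsTriple.tt htrip D) hG'lt2 (n • b) hnb
      (by rw [deg_smul]; exact hn)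
    rw [this, hG'b n, sub_self, ite_self, add_zero]
  · intro γ hγ hne
    by_cases hc : deg γ = D ∧ toZ γ ∈ Λ ∧ rt γ ≠ b
    · exact hc.2.1
    · apply hsupp γ hγ
      intro h0
      apply hne
      simp only [G']
      rw [if_neg hc, h0]
  · intro c hc0 hcΛ hcp gp' g0' gm' h'
    by_cases hcb : c = b
    · subst hcb
      refine PosRay.congr (hin _ _ _ (hspec c)) fun n hn => ?_
      by_cases hn0 : n = 0
      · subst hn0
        rw [zero_smul, h'.g0_zero, (hspec c).g0_zero]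
      have hnb : n • c ≠ 0 := by
        intro h
        apply hc0
        have : n • c = n • (0 : Fin r →₀ ℕ) := by rw [h, smul_zero]
        exact smul_cancel hn0 this
      have := TT.change (IsTriple.tt (hspec c) D) (IsTriple.tt h' D) hG'lt (n • c) hnb
        (by rw [deg_smul]; exact hn)
      rw [this, hG'b n, sub_self, ite_self, add_zero]
    · obtain ⟨hl1, hl2⟩ := hl c hc0 hcΛ hcp hcb
      refine ⟨l c, hl1, fun n hn => ?_⟩
      by_cases hn0 : n = 0
      · subst hn0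
        rw [← hl2 0 (by omega), zero_smul, h'.g0_zero, (hspec c).g0_zero]
      have hnc : n • c ≠ 0 := by
        intro h
        apply hc0
        have : n • c = n • (0 : Fin r →₀ ℕ) := by rw [h, smul_zero]
        exact smul_cancel hn0 this
      have := TT.change (IsTriple.tt (hspec c) D) (IsTriple.tt h' D) hG'lt (n • c) hnc
        (by rw [deg_smul]; exact hn)
      rw [this, if_pos (wt_chartAt_self hB n c)]
      by_cases hd : n * deg c = D
      · have hcond : deg (n • c) = D ∧ toZ (n • c) ∈ Λ ∧ rt (n • c) ≠ b := by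
          refine ⟨by rw [deg_smul]; exact hd, ?_, ?_⟩
          · have : toZ (n • c) = (n : ℤ) • toZ c := by
              funext i
              simp [toZ]
            rw [this]
            exact Λ.zsmul_mem hcΛ n
          · rw [rt_smul hn0 hcp]
            exact hcb
        have e : G' (n • c) = G (n • c) +
            (PowerSeries.coeff n ((l c).map unitSeries).prod -
              zeroPart G (chartAt B 0 c) (n • c)) := by
          simp only [G']
          rw [if_pos hcond, rt_smul hn0 hcp, cont_smul_prim n hcp]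
        rw [e]
        ring
      · have : G' (n • c) = G (n • c) := hG'lt _ (by rw [deg_smul]; omega)
        rw [this, sub_self, add_zero]
        exact hl2 n (by omega)

end

end Vale.Agent.P066.Theta.H463
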