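import Vale.Agent.P066.Theta.Uncond
import Vale.Agent.P066.Theta.H615.Fact

/-!
# Factorizations up to degree `D`

`TT D g p z m Q`: up to degree `D`, `g = p z m` is the factorization of `g` by the sign of `Q`.
Uniqueness, change of `Q`, refinement, and the effect of a change of `g` in degree `D`.
-/

set_option autoImplicit false

open Finset

namespace Vale.Agent.P066.Theta.H463

noncomputable section

open Vale.Agent.P066.Theta

variable {r : ℕ} {B : Matrix (Fin r) (Fin r) ℤ}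

@[simp] theorem deg_zero : deg (0 : Fin r →₀ ℕ) = 0 := by simp [deg]

theorem deg_add (a b : Fin r →₀ ℕ) : deg (a + b) = deg a + deg b := by
  simp [deg, sum_add_distrib]

theorem deg_smul (n : ℕ) (a : Fin r →₀ ℕ) : deg (n • a) = n * deg a := by
  simp [deg, mul_sum]

theorem deg_eq_zero {a : Fin r →₀ ℕ} : deg a = 0 ↔ a = 0 := by
  constructor
  · intro h
    ext i
    simp only [deg, sum_eq_zero_iff, mem_univ, true_imp_iff] at h
    simpa using h i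
  · rintro rfl
    simp

theorem deg_pos {a : Fin r →₀ ℕ} (h : a ≠ 0) : 0 < deg a :=
  Nat.pos_of_ne_zero fun h0 => h (deg_eq_zero.1 h0)

theorem deg_mono {a b : Fin r →₀ ℕ} (h : a ≤ b) : deg a ≤ deg b :=
  sum_le_sum fun i _ => h i

theorem deg_lt {a b : Fin r →₀ ℕ} (h : a < b) : deg a < deg b := by
  obtain ⟨c, rfl⟩ := exists_add_of_le h.le
  have hc : c ≠ 0 := by
    rintro rfl
    simp at h
  rw [deg_add]
  have := deg_pos hc
  omega

/-- Agreement up to degree `D`. -/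
def AgD (D : ℕ) (f g : QSeries B) : Prop := ∀ γ, deg γ ≤ D → f γ = g γ

theorem AgD.rfl' {D : ℕ} {f : QSeries B} : AgD D f f := fun _ _ => rfl

theorem AgD.symm {D : ℕ} {f g : QSeries B} (h : AgD D f g) : AgD D g f :=
  fun γ hγ => (h γ hγ).symm

theorem AgD.trans {D : ℕ} {f g k : QSeries B} (h : AgD D f g) (h' : AgD D g k) : AgD D f k :=
  fun γ hγ => (h γ hγ).trans (h' γ hγ)

theorem AgD.mono {D D' : ℕ} (hD : D' ≤ D) {f g : QSeries B} (h : AgD D f g) : AgD D' f g :=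
  fun γ hγ => h γ (hγ.trans hD)

theorem AgD.mul {D : ℕ} {f f' g g' : QSeries B} (h : AgD D f f') (h' : AgD D g g') :
    AgD D (f * g) (f' * g') := by
  intro γ hγ
  rw [QSeries.mul_apply, QSeries.mul_apply]
  refine sum_congr rfl fun p hp => ?_
  rw [HasAntidiagonal.mem_antidiagonal] at hp
  have hd : deg p.1 + deg p.2 = deg γ := by rw [← deg_add, hp]
  rw [h p.1 (by omega), h' p.2 (by omega)]

/-- Up to degree `D`, `g = p * z * m` is the factorization of `g` by the sign of `Q`. -/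
structure TT (D : ℕ) (g p z m : QSeries B) (Q : Fin r → ℤ) : Prop where
  p0 : p 0 = 1
  z0 : z 0 = 1
  m0 : m 0 = 1
  ps : ∀ γ, γ ≠ 0 → deg γ ≤ D → p γ ≠ 0 → 0 < wt Q γ
  zs : ∀ γ, deg γ ≤ D → z γ ≠ 0 → wt Q γ = 0
  ms : ∀ γ, γ ≠ 0 → deg γ ≤ D → m γ ≠ 0 → wt Q γ < 0
  eq : AgD D g (p * z * m)

theorem IsTriple.tt {g p z m : QSeries B} {Q : Fin r → ℤ} (h : IsTriple g p z m Q) (D : ℕ) :
    TT D g p z m Q where
  p0 := h.gp_zero
  z0 := h.g0_zero
  m0 := h.gm_zero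
  ps := fun γ h0 _ hγ => h.gp_supp γ h0 hγ
  zs := fun γ _ hγ => h.g0_supp γ hγ
  ms := fun γ h0 _ hγ => h.gm_supp γ h0 hγ
  eq := fun γ _ => by rw [h.eq]

theorem TT.mono {D D' : ℕ} (hD : D' ≤ D) {g p z m : QSeries B} {Q : Fin r → ℤ}
    (h : TT D g p z m Q) : TT D' g p z m Q where
  p0 := h.p0
  z0 := h.z0
  m0 := h.m0
  ps := fun γ h0 h1 hγ => h.ps γ h0 (h1.trans hD) hγ
  zs := fun γ h1 hγ => h.zs γ (h1.trans hD) hγ
  ms := fun γ h0 h1 hγ => h.ms γ h0 (h1.trans hD) hγ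
  eq := h.eq.mono hD

theorem TT.congr_left {D : ℕ} {g g' p z m : QSeries B} {Q : Fin r → ℤ}
    (h : TT D g p z m Q) (hg : AgD D g' g) : TT D g' p z m Q where
  p0 := h.p0
  z0 := h.z0
  m0 := h.m0
  ps := h.ps
  zs := h.zs
  ms := h.ms
  eq := hg.trans h.eq

/-- The signs of `Q` and `Q'` agree up to degree `D`. -/
def SameSign (D : ℕ) (Q Q' : Fin r → ℤ) : Prop :=
  ∀ γ : Fin r →₀ ℕ, deg γ ≤ D → (0 < wt Q γ ↔ 0 < wt Q' γ) ∧ (wt Q γ < 0 ↔ wt Q' γ < 0)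

theorem SameSign.symm {D : ℕ} {Q Q' : Fin r → ℤ} (h : SameSign D Q Q') : SameSign D Q' Q :=
  fun γ hγ => ⟨(h γ hγ).1.symm, (h γ hγ).2.symm⟩

theorem SameSign.trans {D : ℕ} {Q Q' Q'' : Fin r → ℤ} (h : SameSign D Q Q')
    (h' : SameSign D Q' Q'') : SameSign D Q Q'' :=
  fun γ hγ => ⟨(h γ hγ).1.trans (h' γ hγ).1, (h γ hγ).2.trans (h' γ hγ).2⟩

theorem SameSign.mono {D D' : ℕ} (hD : D' ≤ D) {Q Q' : Fin r → ℤ} (h : SameSign D Q Q') :
    SameSign D' Q Q' := fun γ hγ => h γ (hγ.trans hD)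

theorem SameSign.eq_zero {D : ℕ} {Q Q' : Fin r → ℤ} (h : SameSign D Q Q') {γ : Fin r →₀ ℕ}
    (hγ : deg γ ≤ D) : wt Q γ = 0 ↔ wt Q' γ = 0 := by
  have := h γ hγ
  omega

theorem TT.congr_form {D : ℕ} {g p z m : QSeries B} {Q Q' : Fin r → ℤ}
    (h : TT D g p z m Q) (hQ : SameSign D Q Q') : TT D g p z m Q' where
  p0 := h.p0
  z0 := h.z0
  m0 := h.m0
  ps := fun γ h0 h1 hγ => (hQ γ h1).1.1 (h.ps γ h0 h1 hγ)
  zs := fun γ h1 hγ => (hQ.eq_zero h1).1 (h.zs γ h1 hγ)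
  ms := fun γ h0 h1 hγ => (hQ γ h1).2.1 (h.ms γ h0 h1 hγ)
  eq := h.eq

/-- The mixed terms of a triple product. -/
def mixed (p z m : QSeries B) (γ : Fin r →₀ ℕ) : K :=
  (∑ q ∈ (antidiagonal γ).filter (fun q => q.1 ≠ 0 ∧ q.2 ≠ 0),
    v ^ omega B (toZ q.1) (toZ q.2) * p q.1 * z q.2) +
  ∑ q ∈ (antidiagonal γ).filter (fun q => q.1 ≠ 0 ∧ q.2 ≠ 0),
    v ^ omega B (toZ q.1) (toZ q.2) * (p * z) q.1 * m q.2

theorem mul3_apply {p z m : QSeries B} (hp : p 0 = 1) (hz : z 0 = 1) (hm : m 0 = 1)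
    {γ : Fin r →₀ ℕ} (hγ : γ ≠ 0) :
    (p * z * m) γ = p γ + z γ + m γ + mixed p z m γ := by
  rw [QSeries.mul_apply_extreme _ _ hγ, QSeries.mul_zero_apply, QSeries.mul_apply_extreme _ _ hγ,
    hp, hz, hm, mixed]
  ring

theorem mixed_congr {p z m p' z' m' : QSeries B} {γ : Fin r →₀ ℕ}
    (h : ∀ δ, δ < γ → p δ = p' δ ∧ z δ = z' δ ∧ m δ = m' δ) :
    mixed p z m γ = mixed p' z' m' γ := by
  unfold mixed
  congr 1
  · refine sum_congr rfl fun q hq => ?_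
    rw [mem_filter, HasAntidiagonal.mem_antidiagonal] at hq
    rw [(h q.1 (QSeries.lt_of_antidiagonal_fst hq.1 hq.2.2)).1,
      (h q.2 (QSeries.lt_of_antidiagonal_snd hq.1 hq.2.1)).2.1]
  · refine sum_congr rfl fun q hq => ?_
    rw [mem_filter, HasAntidiagonal.mem_antidiagonal] at hq
    have hlt := QSeries.lt_of_antidiagonal_fst hq.1 hq.2.2
    have e : (p * z) q.1 = (p' * z') q.1 := by
      rw [QSeries.mul_apply, QSeries.mul_apply]
      refine sum_congr rfl fun t ht => ?_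
      rw [HasAntidiagonal.mem_antidiagonal] at ht
      have h1 : t.1 ≤ q.1 := ht ▸ le_self_add
      have h2 : t.2 ≤ q.1 := ht ▸ le_add_self
      rw [(h t.1 (h1.trans_lt hlt)).1, (h t.2 (h2.trans_lt hlt)).2.1]
    rw [e, (h q.2 (QSeries.lt_of_antidiagonal_snd hq.1 hq.2.1)).2.2]

/-- At each class at most one of the three factors is nonzero. -/
theorem TT.excl {D : ℕ} {g p z m : QSeries B} {Q : Fin r → ℤ} (h : TT D g p z m Q)
    {γ : Fin r →₀ ℕ} (h0 : γ ≠ 0) (hγ : deg γ ≤ D) :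
    (wt Q γ ≤ 0 → p γ = 0) ∧ (wt Q γ ≠ 0 → z γ = 0) ∧ (0 ≤ wt Q γ → m γ = 0) := by
  refine ⟨fun hq => ?_, fun hq => ?_, fun hq => ?_⟩
  · by_contra hc
    have := h.ps γ h0 hγ hc
    omega
  · by_contra hc
    exact hq (h.zs γ hγ hc)
  · by_contra hc
    have := h.ms γ h0 hγ hc
    omega

/-- The three factors at `γ` are determined by the sum of the three factors. -/
theorem excl_solve {Q : Fin r → ℤ} {γ : Fin r →₀ ℕ} {p z m p' z' m' c : K}
    (h : (wt Q γ ≤ 0 → p = 0) ∧ (wt Q γ ≠ 0 → z = 0) ∧ (0 ≤ wt Q γ → m = 0))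
    (h' : (wt Q γ ≤ 0 → p' = 0) ∧ (wt Q γ ≠ 0 → z' = 0) ∧ (0 ≤ wt Q γ → m' = 0))
    (e : p' + z' + m' = p + z + m + c) :
    (p' = p + if 0 < wt Q γ then c else 0) ∧ (z' = z + if wt Q γ = 0 then c else 0) ∧
      (m' = m + if wt Q γ < 0 then c else 0) := by
  rcases lt_trichotomy (wt Q γ) 0 with hq | hq | hq
  · have n1 : ¬ 0 < wt Q γ := by omega
    have n2 : ¬ wt Q γ = 0 := by omega
    rw [h.1 hq.le, h.2.1 hq.ne, h'.1 hq.le, h'.2.1 hq.ne] at e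
    rw [h.1 hq.le, h.2.1 hq.ne, h'.1 hq.le, h'.2.1 hq.ne]
    simp only [n1, n2, hq, if_false, if_true]
    refine ⟨by ring, by ring, by linear_combination e⟩
  · have n1 : ¬ 0 < wt Q γ := by omega
    have n2 : ¬ wt Q γ < 0 := by omega
    rw [h.1 hq.le, h.2.2 hq.ge, h'.1 hq.le, h'.2.2 hq.ge] at e
    rw [h.1 hq.le, h.2.2 hq.ge, h'.1 hq.le, h'.2.2 hq.ge]
    rw [if_neg n1, if_pos hq, if_neg n2]
    refine ⟨by ring, by linear_combination e, by ring⟩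
  · have n1 : ¬ wt Q γ = 0 := by omega
    have n2 : ¬ wt Q γ < 0 := by omega
    rw [h.2.1 hq.ne', h.2.2 hq.le, h'.2.1 hq.ne', h'.2.2 hq.le] at e
    rw [h.2.1 hq.ne', h.2.2 hq.le, h'.2.1 hq.ne', h'.2.2 hq.le]
    rw [if_neg n1, if_pos hq, if_neg n2]
    refine ⟨by linear_combination e, by ring, by ring⟩

/-- **Uniqueness up to degree `D`.** -/
theorem TT.unique {D : ℕ} {g p z m p' z' m' : QSeries B} {Q : Fin r → ℤ}
    (h : TT D g p z m Q) (h' : TT D g p' z' m' Q) :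
    ∀ γ, deg γ ≤ D → p γ = p' γ ∧ z γ = z' γ ∧ m γ = m' γ := by
  intro γ
  induction γ using WellFoundedLT.induction with
  | ind γ ih =>
    intro hγ
    by_cases h0 : γ = 0
    · subst h0
      exact ⟨h.p0.trans h'.p0.symm, h.z0.trans h'.z0.symm, h.m0.trans h'.m0.symm⟩
    have e1 := h.eq γ hγ
    have e2 := h'.eq γ hγ
    rw [mul3_apply h.p0 h.z0 h.m0 h0] at e1
    rw [mul3_apply h'.p0 h'.z0 h'.m0 h0] at e2
    have e3 : mixed p z m γ = mixed p' z' m' γ :=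
      mixed_congr fun δ hδ => ih δ hδ ((deg_mono hδ.le).trans hγ)
    have := excl_solve (c := 0) (h'.excl h0 hγ) (h.excl h0 hγ)
      (by linear_combination e2 - e1 - e3)
    simpa using this

theorem TT.zero_agD {D : ℕ} {g p z m p' z' m' : QSeries B} {Q Q' : Fin r → ℤ}
    (h : TT D g p z m Q) (h' : TT D g p' z' m' Q') (hQ : SameSign D Q Q') : AgD D z z' :=
  fun γ hγ => ((h.congr_form hQ).unique h' γ hγ).2.1

/-- **Change in degree `D`.** If `g'` agrees with `g` in degrees `< D`, the factors change in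
degree `D` only by the change of `g`. -/
theorem TT.change {D : ℕ} {g g' p z m p' z' m' : QSeries B} {Q : Fin r → ℤ}
    (h : TT D g p z m Q) (h' : TT D g' p' z' m' Q) (hlt : ∀ γ, deg γ < D → g' γ = g γ) :
    ∀ γ, γ ≠ 0 → deg γ ≤ D → z' γ = z γ + if wt Q γ = 0 then g' γ - g γ else 0 := by
  have key : ∀ δ, deg δ < D → p' δ = p δ ∧ z' δ = z δ ∧ m' δ = m δ := by
    intro δ hδ
    have t1 : TT (D - 1) g p z m Q := h.mono (Nat.sub_le _ _)
    have t2 : TT (D - 1) g' p' z' m' Q := h'.mono (Nat.sub_le _ _)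
    have t3 : TT (D - 1) g p' z' m' Q := t2.congr_left fun γ hγ => (hlt γ (by omega)).symm
    exact t3.unique t1 δ (by omega)
  intro γ h0 hγ
  have e1 := h.eq γ hγ
  have e2 := h'.eq γ hγ
  rw [mul3_apply h.p0 h.z0 h.m0 h0] at e1
  rw [mul3_apply h'.p0 h'.z0 h'.m0 h0] at e2
  have e3 : mixed p' z' m' γ = mixed p z m γ :=
    mixed_congr fun δ hδ => key δ ((deg_lt hδ).trans_le hγ)
  exact (excl_solve (c := g' γ - g γ) (h.excl h0 hγ) (h'.excl h0 hγ)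
    (by linear_combination e1 - e2 - e3)).2.1

/-- A nonzero mixed term splits `γ` into classes of the supports of the factors. -/
theorem mixed_eq_zero {p z m : QSeries B} {S : AddSubmonoid (Fin r →₀ ℕ)} {γ : Fin r →₀ ℕ}
    (hγ : γ ∉ S) (h : ∀ δ, δ < γ → (p δ ≠ 0 → δ ∈ S) ∧ (z δ ≠ 0 → δ ∈ S) ∧ (m δ ≠ 0 → δ ∈ S)) :
    mixed p z m γ = 0 := by
  have hpz : ∀ δ, δ < γ → (p * z) δ ≠ 0 → δ ∈ S := by
    intro δ hδ hne
    by_contra hS
    apply hne
    apply QSeries.mul_apply_eq_zero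
    intro a b hab
    by_contra hc
    push Not at hc
    have ha : a ≤ δ := hab ▸ le_self_add
    have hb : b ≤ δ := hab ▸ le_add_self
    exact hS (hab ▸ S.add_mem ((h a (ha.trans_lt hδ)).1 hc.1) ((h b (hb.trans_lt hδ)).2.1 hc.2))
  unfold mixed
  rw [sum_eq_zero, sum_eq_zero, add_zero]
  · intro q hq
    rw [mem_filter, HasAntidiagonal.mem_antidiagonal] at hq
    by_contra hc
    have h1 : (p * z) q.1 ≠ 0 := fun h0 => hc (by rw [h0]; ring)
    have h2 : m q.2 ≠ 0 := fun h0 => hc (by rw [h0]; ring)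
    exact hγ (hq.1 ▸ S.add_mem (hpz q.1 (QSeries.lt_of_antidiagonal_fst hq.1 hq.2.2) h1)
      ((h q.2 (QSeries.lt_of_antidiagonal_snd hq.1 hq.2.1)).2.2 h2))
  · intro q hq
    rw [mem_filter, HasAntidiagonal.mem_antidiagonal] at hq
    by_contra hc
    have h1 : p q.1 ≠ 0 := fun h0 => hc (by rw [h0]; ring)
    have h2 : z q.2 ≠ 0 := fun h0 => hc (by rw [h0]; ring)
    exact hγ (hq.1 ▸ S.add_mem ((h q.1 (QSeries.lt_of_antidiagonal_fst hq.1 hq.2.2)).1 h1)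
      ((h q.2 (QSeries.lt_of_antidiagonal_snd hq.1 hq.2.1)).2.1 h2))

/-- If `g` is supported on a submonoid (up to degree `D`), so are its factors. -/
theorem TT.supp {D : ℕ} {g p z m : QSeries B} {Q : Fin r → ℤ} (h : TT D g p z m Q)
    {S : AddSubmonoid (Fin r →₀ ℕ)} (hS : ∀ γ, deg γ ≤ D → g γ ≠ 0 → γ ∈ S) :
    ∀ γ, deg γ ≤ D → (p γ ≠ 0 → γ ∈ S) ∧ (z γ ≠ 0 → γ ∈ S) ∧ (m γ ≠ 0 → γ ∈ S) := by
  intro γ
  induction γ using WellFoundedLT.induction with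
  | ind γ ih =>
    intro hγ
    by_cases hγS : γ ∈ S
    · exact ⟨fun _ => hγS, fun _ => hγS, fun _ => hγS⟩
    have h0 : γ ≠ 0 := by
      rintro rfl
      exact hγS S.zero_mem
    have e1 := h.eq γ hγ
    have hg : g γ = 0 := by
      by_contra hc
      exact hγS (hS γ hγ hc)
    rw [mul3_apply h.p0 h.z0 h.m0 h0, hg,
      mixed_eq_zero hγS fun δ hδ => ih δ hδ ((deg_mono hδ.le).trans hγ)] at e1
    have := excl_solve (p := 0) (z := 0) (m := 0) (c := 0) (Q := Q) (γ := γ)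
      ⟨fun _ => rfl, fun _ => rfl, fun _ => rfl⟩ (h.excl h0 hγ) (by linear_combination -e1)
    simp only [ite_self, add_zero] at this
    exact ⟨fun hc => absurd this.1 hc, fun hc => absurd this.2.1 hc,
      fun hc => absurd this.2.2 hc⟩

/-- The classes on which `Q` vanishes. -/
def kerMon (Q : Fin r → ℤ) : AddSubmonoid (Fin r →₀ ℕ) where
  carrier := {γ | wt Q γ = 0}
  zero_mem' := wt_zero Q
  add_mem' := by
    intro a b ha hb
    show wt Q (a + b) = 0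
    rw [wt_add, show wt Q a = 0 from ha, show wt Q b = 0 from hb, add_zero]

theorem mem_kerMon {Q : Fin r → ℤ} {γ : Fin r →₀ ℕ} : γ ∈ kerMon Q ↔ wt Q γ = 0 := Iff.rfl

/-- `Q3` refines `Q1` by `Q2` (up to degree `D`): its sign is the sign of `Q1` where `Q1 ≠ 0`, and
the sign of `Q2` where `Q1 = 0`. -/
def Refines (D : ℕ) (Q3 Q1 Q2 : Fin r → ℤ) : Prop :=
  ∀ γ : Fin r →₀ ℕ, deg γ ≤ D →
    (0 < wt Q1 γ → 0 < wt Q3 γ) ∧ (wt Q1 γ < 0 → wt Q3 γ < 0) ∧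
    (wt Q1 γ = 0 → (0 < wt Q2 γ → 0 < wt Q3 γ) ∧ (wt Q2 γ = 0 → wt Q3 γ = 0) ∧
      (wt Q2 γ < 0 → wt Q3 γ < 0))

theorem mul_supp_pos {D : ℕ} {Q : Fin r → ℤ} {f g : QSeries B}
    (hf : ∀ γ, γ ≠ 0 → deg γ ≤ D → f γ ≠ 0 → 0 < wt Q γ)
    (hg : ∀ γ, γ ≠ 0 → deg γ ≤ D → g γ ≠ 0 → 0 < wt Q γ) :
    ∀ γ, γ ≠ 0 → deg γ ≤ D → (f * g) γ ≠ 0 → 0 < wt Q γ := by
  intro γ h0 hγ hne
  by_contra hc
  apply hne
  apply QSeries.mul_apply_eq_zero
  intro a b hab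
  by_contra hn
  push Not at hn
  have hd : deg a + deg b = deg γ := by rw [← deg_add, hab]
  have hw : wt Q a + wt Q b = wt Q γ := by rw [← wt_add, hab]
  by_cases ha : a = 0
  · have hb : b ≠ 0 := by
      rintro rfl
      rw [ha, add_zero] at hab
      exact h0 hab.symm
    have := hg b hb (by omega) hn.2
    rw [ha, wt_zero] at hw
    omega
  · have h1 := hf a ha (by omega) hn.1
    by_cases hb : b = 0
    · rw [hb, wt_zero] at hw
      omega
    · have h2 := hg b hb (by omega) hn.2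
      omega

theorem mul_supp_neg {D : ℕ} {Q : Fin r → ℤ} {f g : QSeries B}
    (hf : ∀ γ, γ ≠ 0 → deg γ ≤ D → f γ ≠ 0 → wt Q γ < 0)
    (hg : ∀ γ, γ ≠ 0 → deg γ ≤ D → g γ ≠ 0 → wt Q γ < 0) :
    ∀ γ, γ ≠ 0 → deg γ ≤ D → (f * g) γ ≠ 0 → wt Q γ < 0 := by
  intro γ h0 hγ hne
  by_contra hc
  apply hne
  apply QSeries.mul_apply_eq_zero
  intro a b hab
  by_contra hn
  push Not at hn
  have hd : deg a + deg b = deg γ := by rw [← deg_add, hab]
  have hw : wt Q a + wt Q b = wt Q γ := by rw [← wt_add, hab]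
  by_cases ha : a = 0
  · have hb : b ≠ 0 := by
      rintro rfl
      rw [ha, add_zero] at hab
      exact h0 hab.symm
    have := hg b hb (by omega) hn.2
    rw [ha, wt_zero] at hw
    omega
  · have h1 := hf a ha (by omega) hn.1
    by_cases hb : b = 0
    · rw [hb, wt_zero] at hw
      omega
    · have h2 := hg b hb (by omega) hn.2
      omega

/-- **Refinement.** -/
theorem TT.refine' {D : ℕ} {g P G M Gp G0 Gm : QSeries B} {Q1 Q2 Q3 : Fin r → ℤ}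
    (h : TT D g P G M Q1) (h' : TT D G Gp G0 Gm Q2) (hQ : Refines D Q3 Q1 Q2) :
    TT D g (P * Gp) G0 (Gm * M) Q3 := by
  have hs := h'.supp (S := kerMon Q1) fun γ hγ hne => h.zs γ hγ hne
  refine ⟨?_, h'.z0, ?_, ?_, ?_, ?_, ?_⟩
  · rw [QSeries.mul_zero_apply, h.p0, h'.p0, one_mul]
  · rw [QSeries.mul_zero_apply, h.m0, h'.m0, one_mul]
  · apply mul_supp_pos
    · intro γ h0 hγ hne
      exact (hQ γ hγ).1 (h.ps γ h0 hγ hne)
    · intro γ h0 hγ hne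
      exact ((hQ γ hγ).2.2 ((hs γ hγ).1 hne)).1 (h'.ps γ h0 hγ hne)
  · intro γ hγ hne
    exact ((hQ γ hγ).2.2 ((hs γ hγ).2.1 hne)).2.1 (h'.zs γ hγ hne)
  · apply mul_supp_neg
    · intro γ h0 hγ hne
      exact ((hQ γ hγ).2.2 ((hs γ hγ).2.2 hne)).2.2 (h'.ms γ h0 hγ hne)
    · intro γ h0 hγ hne
      exact (hQ γ hγ).2.1 (h.ms γ h0 hγ hne)
  · have e : P * Gp * G0 * (Gm * M) = P * (Gp * G0 * Gm) * M := by
      simp only [mul_assoc]
    rw [e]
    exact h.eq.trans ((AgD.rfl'.mul h'.eq).mul AgD.rfl')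

/-- The zero part at `Q3` is the zero part at `Q2` of the zero part at `Q1`. -/
theorem TT.zero_of_refines {D : ℕ} {g P G M Gp G0 Gm p z m : QSeries B} {Q1 Q2 Q3 : Fin r → ℤ}
    (h : TT D g P G M Q1) (h' : TT D G Gp G0 Gm Q2) (hQ : Refines D Q3 Q1 Q2)
    (h3 : TT D g p z m Q3) : AgD D z G0 :=
  fun γ hγ => (h3.unique (h.refine' h' hQ) γ hγ).2.1

end

end Vale.Agent.P066.Theta.H463
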