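import Vale.Agent.P066.Theta.H463.Walls
import Vale.Agent.P066.Theta.H988.Flow

/-!
# `AttrPos g → WallPos g`
-/

set_option autoImplicit false

open Finset

namespace Vale.Agent.P066.Theta

noncomputable section

variable {r : ℕ} {B : Matrix (Fin r) (Fin r) ℤ}

namespace H463

open H988

theorem flowStep (hB : B.transpose = -B) : FlowStep B := by
  intro Q D b hb hbD hG hne
  obtain ⟨x0, hx0, hneg, hmin⟩ := H988.exists_min (Q := Q) (D := D) (b := b) (B := B)
    (Finset.nonempty_iff_ne_empty.1 hne)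
  obtain ⟨n, hn, hgen, hss, hr1, hr2, hcard⟩ := H988.flow_step hB hG hx0 hneg hmin
  have ho : omega B (toZ x0) (toZ b) ≠ 0 := by
    intro hc
    rw [show om B x0 b = 0 from hc, mul_zero] at hneg
    exact absurd hneg (lt_irrefl _)
  refine ⟨x0, joint B Q b x0, n • joint B Q b x0 + chartAt B 0 b, hx0, ho, joint_self hneg,
    joint_b hB hG.wall.1, mem_Lam_of_joint hG hb hx0 hneg, hgen, hcard, hr1, ?_⟩
  intro γ hγ
  obtain ⟨h1, h2, h3⟩ := hr2 γ hγ
  obtain ⟨s1, s2⟩ := hss γ hγ
  refine ⟨fun h => s1.2 (h1 h), fun h => s2.2 (h2 h), fun h => ?_⟩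
  obtain ⟨k1, k2, k3⟩ := h3 h
  refine ⟨fun h => s1.2 (k1 h), fun h => ?_, fun h => s2.2 (k3 h)⟩
  have := k2 h
  omega

theorem otherRay (hB : B.transpose = -B) : OtherRay B := by
  intro Qs D b x0 c ho hsx0 hsb hker hc0 hmem hprim
  obtain ⟨n, hn0, hn⟩ := exists_bound B D c
  have e : ∀ x, wt (n • Qs + chartAt B 0 c) x = n * wt Qs x + om B x c := fun x => by
    rw [wt_add_left, wt_smul_left, wt_chartAt_zero]
  have hJ : wt Qs c = 0 := by
    obtain ⟨a, p, q, ha, h⟩ := hmem
    have h1 : dot Qs (a • toZ c) = 0 := by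
      have hadd : ∀ x y : Fin r → ℤ, dot Qs (x + y) = dot Qs x + dot Qs y := by
        intro x y
        simp only [dot, Pi.add_apply, add_mul, sum_add_distrib]
      rw [h, hadd, dot_smul_right, dot_smul_right, wt_smulZ_eq_dot, wt_smulZ_eq_dot, hsx0, hsb]
      ring
    rw [dot_smul_right, wt_smulZ_eq_dot] at h1
    exact (mul_eq_zero.1 h1).resolve_left ha
  refine ⟨n • Qs + chartAt B 0 c, ⟨?_, ?_⟩, refines_of_bound hn⟩
  · rw [e, hJ, H988.om_self hB]; ring
  · intro b' hb' hd h0
    rw [e] at h0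
    have h1 := abs_lt.1 (hn b' hd)
    have h2 : wt Qs b' = 0 := by
      rcases lt_trichotomy (wt Qs b') 0 with h | h | h
      · nlinarith
      · exact h
      · nlinarith
    have h3 : om B b' c = 0 := by rw [h2, mul_zero, zero_add] at h0; exact h0
    exact eq_smul_of_par hc0 hprim (par_of_mem_Lam hB ho (hker b' hd h2) hmem h3)

end H463

/-- **All walls are of positive type** (given the local theorem). -/
theorem wallPos_of_attrPos (hL : LocalTheorem) (hB : B.transpose = -B) {g : QSeries B}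
    (h0 : g 0 = 1) (hA : AttrPos g) : WallPos g :=
  H463.wallPos_of_attrPos_of_flow hL (H463.flowStep hB) (H463.otherRay hB) hB h0 hA

end

end Vale.Agent.P066.Theta
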