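import Vale.Agent.P066.Theta.H463.LocalStep
import Vale.Agent.P066.Theta.H988.Generic

/-!
# All walls are of positive type

`wallPos_of_attrPos_of_flow`: induction on the degree and on the number of classes which have not
yet their asymptotic sign.
-/

set_option autoImplicit false

open Finset

namespace Vale.Agent.P066.Theta.H463

noncomputable section

open Vale.Agent.P066.Theta H988

variable {r : ℕ} {B : Matrix (Fin r) (Fin r) ℤ}

/-- Classes whose sign is not yet the asymptotic one. -/
def defect (B : Matrix (Fin r) (Fin r) ℤ) (Q : Fin r → ℤ) (D : ℕ) (b : Fin r →₀ ℕ) :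
    Finset (Fin r →₀ ℕ) :=
  (degSet r D).filter fun x => wt Q x * omega B (toZ x) (toZ b) < 0

theorem mem_defect {Q : Fin r → ℤ} {D : ℕ} {b x : Fin r →₀ ℕ} :
    x ∈ defect B Q D b ↔ deg x ≤ D ∧ wt Q x * omega B (toZ x) (toZ b) < 0 := by
  rw [defect, mem_filter, mem_degSet]

/-- One step of the flow. -/
def FlowStep (B : Matrix (Fin r) (Fin r) ℤ) : Prop :=
  ∀ (Q : Fin r → ℤ) (D : ℕ) (b : Fin r →₀ ℕ), b ≠ 0 → deg b ≤ D → Generic B Q D b →
    (defect B Q D b).Nonempty →
    ∃ (x0 : Fin r →₀ ℕ) (Qs Qp : Fin r → ℤ), deg x0 ≤ D ∧ omega B (toZ x0) (toZ b) ≠ 0 ∧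
      wt Qs x0 = 0 ∧ wt Qs b = 0 ∧
      (∀ γ, deg γ ≤ D → wt Qs γ = 0 → toZ γ ∈ Lam (toZ b) (toZ x0)) ∧
      Generic B Qp D b ∧ (defect B Qp D b).card < (defect B Q D b).card ∧
      Refines D Qp Qs (chartAt B 0 b) ∧ Refines D Q Qs (-(chartAt B 0 b))

/-- The other rays of a joint. -/
def OtherRay (B : Matrix (Fin r) (Fin r) ℤ) : Prop :=
  ∀ (Qs : Fin r → ℤ) (D : ℕ) (b x0 c : Fin r →₀ ℕ), omega B (toZ x0) (toZ b) ≠ 0 →
    wt Qs x0 = 0 → wt Qs b = 0 →
    (∀ γ, deg γ ≤ D → wt Qs γ = 0 → toZ γ ∈ Lam (toZ b) (toZ x0)) →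
    c ≠ 0 → toZ c ∈ Lam (toZ b) (toZ x0) → Prim c →
    ∃ Q : Fin r → ℤ, IsWallAt Q D c ∧ Refines D Q Qs (chartAt B 0 c)

theorem Refines.mono {D D' : ℕ} (hD : D' ≤ D) {Q3 Q1 Q2 : Fin r → ℤ} (h : Refines D Q3 Q1 Q2) :
    Refines D' Q3 Q1 Q2 := fun γ hγ => h γ (hγ.trans hD)

theorem prim_of_isWallAt {Q : Fin r → ℤ} {D : ℕ} {b : Fin r →₀ ℕ} (hb : b ≠ 0)
    (hD : deg b ≤ D) (h : IsWallAt Q D b) : Prim b := by
  intro n c hc
  have hn : n ≠ 0 := by
    rintro rfl
    rw [zero_smul] at hc
    exact hb hc.symm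
  have hc0 : c ≠ 0 := by
    rintro rfl
    rw [smul_zero] at hc
    exact hb hc.symm
  have hdc : deg c ≤ D := by
    have : deg b = n * deg c := by rw [← hc, deg_smul]
    have h2 : deg c ≤ n * deg c := Nat.le_mul_of_pos_left _ (Nat.pos_of_ne_zero hn)
    omega
  have hw : wt Q c = 0 := by
    have h1 := h.1
    rw [← hc, wt_smul] at h1
    rcases mul_eq_zero.1 h1 with h2 | h2
    · exact absurd (by exact_mod_cast h2) hn
    · exact h2
  obtain ⟨m, hm⟩ := h.2 c hc0 hdc hw
  have h3 : deg b = n * (m * deg b) := by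
    conv_lhs => rw [← hc, deg_smul, hm, deg_smul]
  have h4 : 0 < deg b := deg_pos hb
  have h5 : n * m = 1 := by
    have : (n * m) * deg b = 1 * deg b := by rw [mul_assoc, one_mul]; exact h3.symm
    exact Nat.eq_of_mul_eq_mul_right h4 this
  exact Nat.eq_one_of_mul_eq_one_right h5

theorem toZ_smul (n : ℕ) (c : Fin r →₀ ℕ) : toZ (n • c) = (n : ℤ) • toZ c := by
  funext i
  simp [toZ]

theorem omega_smul_left (n : ℤ) (x y : Fin r → ℤ) : omega B (n • x) y = n * omega B x y := by
  simp only [omega, Pi.smul_apply, smul_eq_mul, mul_sum]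
  refine sum_congr rfl fun i _ => sum_congr rfl fun j _ => ?_
  ring

/-- A generic form without defect is near the ray. -/
theorem nearRay_of_defect (hB : B.transpose = -B) {Q : Fin r → ℤ} {D : ℕ} {b : Fin r →₀ ℕ}
    (hQ : IsWallAt Q D b) (h : ¬ (defect B Q D b).Nonempty) : NearRay B Q D b := by
  have key : ∀ b' : Fin r →₀ ℕ, deg b' ≤ D → omega B (toZ b') (toZ b) ≠ 0 →
      0 < wt Q b' * omega B (toZ b') (toZ b) := by
    intro b' hb' ho
    have h1 : ¬ wt Q b' * omega B (toZ b') (toZ b) < 0 := fun hc =>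
      h ⟨b', mem_defect.2 ⟨hb', hc⟩⟩
    have h2 : wt Q b' ≠ 0 := by
      intro h0
      by_cases hb0 : b' = 0
      · subst hb0
        exact ho (by simp)
      obtain ⟨n, rfl⟩ := hQ.2 b' hb0 hb' h0
      exact ho (by rw [toZ_smul, omega_smul_left, omega_self hB, mul_zero])
    exact lt_of_le_of_ne (not_lt.1 h1) (mul_ne_zero h2 ho).symm
  constructor
  · intro b' hb' ho
    by_contra hc
    have := mul_nonpos_of_nonpos_of_nonneg (not_lt.1 hc) ho.le
    exact absurd (key b' hb' ho.ne') (not_lt.2 this)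
  · intro b' hb' ho
    by_contra hc
    have := mul_nonpos_of_nonneg_of_nonpos (not_lt.1 hc) ho.le
    exact absurd (key b' hb' ho.ne) (not_lt.2 this)

theorem wallPos_of_attrPos_of_flow (hL : LocalTheorem) (hF : FlowStep B) (hO : OtherRay B)
    (hB : B.transpose = -B) {g : QSeries B} (h0 : g 0 = 1) (hA : AttrPos g) : WallPos g := by
  have main : ∀ D : ℕ, ∀ (Q : Fin r → ℤ) (b : Fin r →₀ ℕ), b ≠ 0 → IsWallAt Q D b →
      ∀ gp g0 gm, IsTriple g gp g0 gm Q → PosRay D b g0 := by
    intro D
    induction D with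
    | zero =>
      intro Q b hb _ gp g0 gm h
      exact posRay_of_lt (deg_pos hb) h.g0_zero
    | succ D ihD =>
      intro Q b hb hQ gp g0 gm h
      by_cases hbD : D + 1 < deg b
      · exact posRay_of_lt hbD h.g0_zero
      have hbD' : deg b ≤ D + 1 := not_lt.1 hbD
      have hbp := prim_of_isWallAt hb hbD' hQ
      have inner : ∀ N : ℕ, ∀ Q' : Fin r → ℤ, Generic B Q' (D + 1) b →
          (defect B Q' (D + 1) b).card ≤ N → PosRay (D + 1) b (zeroPart g Q') := by
        intro N
        induction N with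
        | zero =>
          intro Q' hQ' hN
          refine hA (D + 1) Q' b hb hQ'.wall (nearRay_of_defect hB hQ'.wall ?_) _ _ _
            (triple_spec h0 Q')
          intro hne
          have := card_pos.2 hne
          omega
        | succ N ihN =>
          intro Q' hQ' hN
          by_cases hne : (defect B Q' (D + 1) b).Nonempty
          · obtain ⟨x0, Qs, Qp, hx0, hox0, hsx0, hsb, hker, hQp, hcard, hrefp, hrefm⟩ :=
              hF Q' (D + 1) b hb hbD' hQ' hne
            have hs := triple_spec h0 Qs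
            have hG1 : zeroPart g Qs 0 = 1 := hs.g0_zero
            have hp := ihN Qp hQp (by omega)
            have hm := triple_spec hG1 (-(chartAt B 0 b))
            have hnd : omega B (toZ b) (toZ x0) ≠ 0 := by
              rw [omega_swap hB]
              exact neg_ne_zero.2 hox0
            have hout := local_step hL hB (Lam (toZ b) (toZ x0)) (D + 1) (zeroPart g Qs) hG1
              (fun γ hγ hne => hker γ hγ (hs.g0_supp γ hne))
              (Lam_dep _ _) (Lam_sat _ _)
              ⟨toZ b, left_mem_Lam _ _, toZ x0, right_mem_Lam _ _, hnd⟩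
              hb (left_mem_Lam _ _) hbp ?_ ?_ _ _ _ hm
            · refine PosRay.congr hout fun n hn => ?_
              exact TT.zero_of_refines (IsTriple.tt hs (D + 1)) (IsTriple.tt hm (D + 1)) hrefm
                (IsTriple.tt (triple_spec h0 Q') (D + 1)) (n • b) (by rw [deg_smul]; exact hn)
            · intro c hc0 hcΛ hcp hcb gp' g0' gm' h'
              by_cases hcD : D < deg c
              · exact posRay_of_lt (by omega) h'.g0_zero
              obtain ⟨Q'', hw, href⟩ := hO Qs D b x0 c hox0 hsx0 hsb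
                (fun γ hγ => hker γ (hγ.trans (Nat.le_succ D))) hc0 hcΛ hcp
              have h3 := ihD Q'' c hc0 hw _ _ _ (triple_spec h0 Q'')
              refine PosRay.congr h3 fun n hn => ?_
              have := TT.zero_of_refines (IsTriple.tt hs D) (IsTriple.tt h' D) href
                (IsTriple.tt (triple_spec h0 Q'') D) (n • c) (by rw [deg_smul]; exact hn)
              exact this.symm
            · intro gp' g0' gm' h'
              refine PosRay.congr hp fun n hn => ?_
              have := TT.zero_of_refines (IsTriple.tt hs (D + 1)) (IsTriple.tt h' (D + 1)) hrefp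
                (IsTriple.tt (triple_spec h0 Qp) (D + 1)) (n • b) (by rw [deg_smul]; exact hn)
              exact this.symm
          · exact hA (D + 1) Q' b hb hQ'.wall (nearRay_of_defect hB hQ'.wall hne) _ _ _
              (triple_spec h0 Q')
      obtain ⟨Q', hQ', hsame⟩ := exists_generic B hQ
      have h1 := inner _ Q' hQ' le_rfl
      refine PosRay.congr h1 fun n hn => ?_
      have := TT.zero_agD (IsTriple.tt h (D + 1)) (IsTriple.tt (triple_spec h0 Q') (D + 1))
        (fun γ hγ => hsame γ hγ) (n • b) (by rw [deg_smul]; exact hn)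
      exact this
  intro D Q b hb hQ gp g0 gm h
  exact main D Q b hb hQ gp g0 gm h

end

end Vale.Agent.P066.Theta.H463
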